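import Vale.Agent.P011UHC.Nrm

/-!
Tori over fields of dimension one: `CD1`.
-/

set_option autoImplicit false
set_option linter.all false

namespace Vale.Agent.P011UHC

open Vale.Agent.P011UHB Vale.Agent.P011U Module IntermediateField

theorem lift_ml {F K : Type} [Field F] [Field K] [Algebra F K] (E : IntermediateField F K) {r : ℕ}
    {χ : (Fin r → ℤ) → Kˣ} (h : Ml χ) (m : ∀ x, (χ x : K) ∈ E) :
    ∃ χ' : (Fin r → ℤ) →+ Additive Eˣ, ∀ x, (((χ' x).toMul : E) : K) = χ x :=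
  ⟨AddMonoidHom.mk' (fun x => Additive.ofMul (Units.mk0 ⟨_, m x⟩ fun e =>
    (χ x).ne_zero (congrArg Subtype.val e))) fun x y =>
      Additive.toMul.injective (Units.ext (Subtype.ext (congrArg Units.val (h x y)))), fun _ => rfl⟩

theorem cd1 : CD1 := by
  intro k K _ _ _ _ r ω ξ hξ l a F p hD ⟨χ₀, m₀, h₀⟩
  classical
  have := Fact.mk p
  obtain ⟨S, hS⟩ := near_op hξ.cont ⊤
  let E := (FiniteGaloisIntermediateField.adjoin F (S : Set K)).toIntermediateField
  have hE : ∀ τ : K ≃ₐ[k] K, (∀ y ∈ E, τ y = y) → ω τ = 1 ∧ ξ τ = 1 := fun τ e =>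
    hS τ trivial fun x m => e x (FiniteGaloisIntermediateField.subset_adjoin F (S : Set K) m)
  have key : ∀ σ σ' : K ≃ₐ[k] K, (∀ y ∈ E, σ y = σ' y) → ω σ' = ω σ ∧ ξ σ' = ξ σ := fun σ σ' e => by
    obtain ⟨h1, h2⟩ := hE (σ⁻¹ * σ') fun y m => by
      show σ.symm (σ' y) = y
      rw [← e y m, σ.symm_apply_apply]
    rw [← mul_inv_cancel_left σ σ', map_mul, h1, mul_one, hξ.mul, h2]
    exact ⟨rfl, funext fun x => by show _ * Units.map _ 1 = _; rw [map_one, mul_one]⟩
  have fx : ∀ x : K, (∀ τ : K ≃ₐ[k] K, (∀ y ∈ E, τ y = y) → τ x = x) → x ∈ E := fun x h => by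
    rw [← InfiniteGalois.fixedField_fixingSubgroup E, mem_fixedField_iff]
    exact fun f m => h (f.restrictScalars k) fun y n => m ⟨y, n⟩
  choose s hs using AlgEquiv.restrictNormalHom_surjective (F := F) (K₁ := E) K
  let j : (E ≃ₐ[F] E) → K ≃ₐ[k] K := fun g => (s g).restrictScalars k
  have hj : ∀ g (y : E), j g y = g y := fun g y => by
    conv_rhs => rw [← hs g]
    exact (AlgEquiv.restrictNormalHom_apply E (s g) y).symm
  have jm : ∀ g h, ∀ y ∈ E, (j g * j h) y = j (g * h) y := fun g h y m => by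
    show j g (j h (⟨y, m⟩ : E)) = j (g * h) (⟨y, m⟩ : E)
    rw [hj, hj, hj]; rfl
  let ω' : (E ≃ₐ[F] E) →* _ := MonoidHom.mk' (fun g => ω (j g)) fun g h =>
    (key _ _ (jm g h)).1.trans (map_mul ω _ _)
  have oi : ∀ g, ω' g⁻¹ = (ω (j g))⁻¹ := map_inv ω'
  choose ξ' hξ' using fun g => lift_ml E (hξ.ml (j g)) fun x => fx _ fun τ e => by
    have := congrFun (key (τ * j g) (j g) fun y m => by
      show τ (j g (⟨y, m⟩ : E)) = j g (⟨y, m⟩ : E)
      rw [hj]; exact e _ (g _).2).2 x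
    rw [hξ.mul, (hE τ e).2, one_mul, ga, (hE τ e).1] at this
    exact (congrArg Units.val this).symm
  obtain ⟨χ₁, h₁⟩ := lift_ml E m₀ fun x => fx _ fun τ e => by
    have := congrFun (h₀ τ fun y m => e y (E.algebraMap_mem ⟨y, m⟩)) x
    simp only [(hE τ e).2, one_pow, one_mul, ga, (hE τ e).1] at this
    exact (congrArg Units.val this).symm
  have inj : ∀ {u v : Additive Eˣ}, ((u.toMul : E) : K) = (v.toMul : E) → u = v := fun e =>
    Additive.toMul.injective (Units.ext (Subtype.ext e))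
  let P : Sylow l (E ≃ₐ[F] E) := default
  have := Fintype.ofFinite P
  obtain ⟨χ, hχ⟩ := cob_main (ω := ω') (ξ := ξ') P (h1_rep P.1) (h0_rep (d1_of hD) E.val P.1 P.2)
    (fun g h x => inj (by
      show _ = ((ξ' g x).toMul : E).1 * (g (ξ' h _).toMul : E).1
      rw [← hj, hξ', hξ', hξ', (key _ _ (jm g h)).2, hξ.mul, oi]; rfl)) a
    ⟨χ₁, fun g x => inj (by
      have := congrArg Units.val (congrFun (h₀ (j g) fun y m => (s g).commutes ⟨y, m⟩) x)
      rw [rep_val, ← hj, h₁, oi, ← Nat.cast_pow, natCast_zsmul, toMul_add, toMul_nsmul,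
        Units.val_mul, Units.val_pow_eq_pow_val, E.coe_mul, E.coe_pow, hξ', h₁]
      exact this.symm.trans (by simp))⟩
  refine ⟨fun x => Units.map (E.val : E →* K) (χ x).toMul, fun x y => by
    simp only [map_add, toMul_add, map_mul],
    fun σ hσ => funext fun x => Units.ext ?_⟩
  let σ' := fixingSubgroupEquiv F ⟨σ, fun y => hσ y y.2⟩
  let g := AlgEquiv.restrictNormalHom E σ'
  have e : ∀ y : E, σ y = g y := fun y => (AlgEquiv.restrictNormalHom_apply E σ' y).symm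
  obtain ⟨h1, h2⟩ := key (j g) σ fun y m => (hj g ⟨y, m⟩).trans (e ⟨y, m⟩).symm
  have := congrArg (fun u : Additive Eˣ => ((u.toMul : E) : K)) (hχ g x)
  show (ξ σ x : K) * ((χ x).toMul : E) = σ ((χ ((ω σ)⁻¹ x)).toMul : E)
  rw [e, h1, h2, ← hξ', ← oi]
  rw [one_smul] at this
  exact this.symm

end Vale.Agent.P011UHC
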