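import Vale.Agent.P011UHB.Spec
import Vale.Agent.P011LD.H90

/-!
Hilbert's theorem 90 for permutation modules: `PRM`.
-/

set_option autoImplicit false
set_option linter.all false

namespace Vale.Agent.P011UHC

open Vale.Agent.P011LD Vale.Agent.P011UHB Vale.Agent.P011U

variable {k K : Type} [Field k] [Field K] [Algebra k K]

/-- Hilbert 90 for permutation tori over any field. -/
theorem h90p [Algebra.IsAlgebraic k K] {Γ : Subgroup (K ≃ₐ[k] K)} {J : Type} [Fintype J]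
    (π : (K ≃ₐ[k] K) → Equiv.Perm J)
    (hπ : ∀ σ ∈ Γ, ∀ τ ∈ Γ, π (σ * τ) = π σ * π τ) (c : (K ≃ₐ[k] K) → J → Kˣ)
    (h : ∀ σ ∈ Γ, ∀ τ ∈ Γ, ∀ j, (c (σ * τ) j : K) = c σ j * σ (c τ ((π σ).symm j)))
    (hc : Op Γ fun σ => π σ = 1 ∧ ∀ j, c σ j = 1) :
    ∃ b : J → Kˣ, ∀ σ ∈ Γ, ∀ j, (c σ j : K) * σ (b ((π σ).symm j)) = b j := by
  classical
  have S : P011LD.Sl Γ fun σ (v : J → K) j => c σ j * σ (v ((π σ).symm j)) :=
    ⟨fun σ _ v w => funext fun j => by simp only [Pi.add_apply, map_add, mul_add],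
      fun σ _ x v => funext fun j => by simp only [Pi.smul_apply, smul_eq_mul, map_mul]; ring,
      fun σ s τ t v => funext fun j => by rw [h σ s τ t, hπ σ s τ t, map_mul, mul_assoc]; rfl,
      fun v => (hc.and (Op.vec Γ v)).imp fun σ _ e => funext fun j => by
        rw [e.1.1, e.1.2, Units.val_one, one_mul]; exact congrFun e.2 j⟩
  let P : J → (J → K) → Prop := fun j v =>
    (∀ σ ∈ Γ, ∀ i, (c σ i : K) * σ (v ((π σ).symm i)) = v i) ∧ v j ≠ 0
  have ex : ∀ j, ∃ v, P j v := fun j => by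
    by_contra hn
    have : (⊤ : Submodule K (J → K)) ≤
        LinearMap.ker (LinearMap.proj (R := K) (φ := fun _ : J => K) j) := by
      rw [← S.span]
      refine Submodule.span_le.2 fun v hv => ?_
      by_contra e
      exact hn ⟨v, fun σ s i => congrFun (hv σ s) i, e⟩
    exact one_ne_zero (α := K) (this (Submodule.mem_top (x := (1 : J → K))))
  have eq : ∀ σ ∈ Γ, ∀ j, P ((π σ).symm j) = P j := fun σ s j => funext fun v =>
    propext (and_congr_right fun hv => by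
      rw [← hv σ s j, ne_eq, ne_eq, mul_eq_zero, map_eq_zero, not_or]
      exact ⟨fun e => ⟨Units.ne_zero _, e⟩, And.right⟩)
  refine ⟨fun j => Units.mk0 _ (Classical.epsilon_spec (ex j)).2, fun σ s j => ?_⟩
  show _ * σ (Classical.epsilon (P _) _) = Classical.epsilon (P j) j
  rw [eq σ s j]
  exact (Classical.epsilon_spec (ex j)).1 σ s j

/-- Points of the torus as homomorphisms. -/
def mlh {r : ℕ} {χ : (Fin r → ℤ) → Kˣ} (h : Ml χ) : (Fin r → ℤ) →+ Additive Kˣ :=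
  AddMonoidHom.mk' (fun γ => Additive.ofMul (χ γ)) fun γ δ => congrArg Additive.ofMul (h γ δ)

theorem ml_smul {r : ℕ} {χ : (Fin r → ℤ) → Kˣ} (h : Ml χ) (n : ℤ) (γ) : χ (n • γ) = χ γ ^ n :=
  map_zsmul (mlh h) n γ

theorem ml_sum {r : ℕ} {χ : (Fin r → ℤ) → Kˣ} (h : Ml χ) {ι : Type} (s : Finset ι)
    (f : ι → Fin r → ℤ) : χ (∑ i ∈ s, f i) = ∏ i ∈ s, χ (f i) := map_sum (mlh h) f s

theorem near_op {P : (K ≃ₐ[k] K) → Prop} (h : Near k P) (Γ : Subgroup (K ≃ₐ[k] K)) : Op Γ P := by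
  obtain ⟨F, f, hF⟩ := h
  exact Op.of_field F fun σ _ => hF σ

theorem prm : PRM := by
  intro k K _ _ _ _ r ω ξ hξ S b m hS hm
  classical
  have := IsSepClosure.separable (k := k) (K := K)
  have inv : ∀ σ, ∀ s ∈ S, (ω σ)⁻¹ s ∈ S := fun σ s hs => map_inv ω σ ▸ (hS σ⁻¹ s hs).1
  let π : (K ≃ₐ[k] K) → Equiv.Perm S := fun σ =>
    ⟨fun s => ⟨ω σ s, (hS σ s s.2).1⟩, fun s => ⟨(ω σ)⁻¹ s, inv σ s s.2⟩,
      fun s => Subtype.ext ((ω σ).symm_apply_apply s), fun s => Subtype.ext ((ω σ).apply_symm_apply s)⟩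
  obtain ⟨β, hβ⟩ := h90p (Γ := ⊤) π
    (fun σ _ τ _ => Equiv.ext fun s => Subtype.ext (by show ω (σ * τ) s = _; rw [map_mul]; rfl))
    (fun σ s => ξ σ s) (fun σ _ τ _ s => by rw [hξ.mul]; rfl)
    ((near_op hξ.cont ⊤).imp fun σ _ e => ⟨Equiv.ext fun s => Subtype.ext (by
      show ω σ s = _; rw [e.1]; rfl), fun s => by rw [e.2]; rfl⟩)
  refine ⟨fun γ => ∏ s : S, β s ^ (-b s γ), fun γ δ => ?_, fun σ _ => funext fun γ => ?_⟩
  · simp only [map_add, neg_add, zpow_add, Finset.prod_mul_distrib]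
  have e1 : (ξ σ ^ m) γ = ∏ s : S, ξ σ s ^ b s γ := by
    rw [Pi.pow_apply, ← zpow_natCast, ← ml_smul (hξ.ml σ), natCast_zsmul, ← hm γ,
      ml_sum (hξ.ml σ), ← Finset.prod_coe_sort]
    exact Finset.prod_congr rfl fun s _ => ml_smul (hξ.ml σ) _ _
  show (ξ σ ^ m) γ * ∏ s : S, β s ^ (-b s γ) =
    Units.map (σ : K →* K) (∏ s : S, β s ^ (-b s ((ω σ)⁻¹ γ)))
  rw [e1, map_prod, ← (π σ).symm.prod_comp (fun s : S => Units.map (σ : K →* K) _),
    ← Finset.prod_mul_distrib]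
  refine Finset.prod_congr rfl fun s _ => ?_
  have e2 : b ((π σ).symm s) ((ω σ)⁻¹ γ) = b s γ := by
    have := (hS σ⁻¹ s s.2).2 γ
    rwa [map_inv] at this
  have e3 : β s = ξ σ s * Units.map (σ : K →* K) (β ((π σ).symm s)) :=
    Units.ext (hβ σ trivial s).symm
  rw [e2, map_zpow, e3, mul_zpow, ← mul_assoc, ← zpow_add, add_neg_cancel, zpow_zero, one_mul]

end Vale.Agent.P011UHC
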