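import Mathlib

/-!
Cocycles of a finite group with values in `Hom(X, A)`, `X` a lattice.
-/

set_option autoImplicit false
set_option linter.all false

namespace Vale.Agent.P011UHC

variable {G X A : Type} [Group G] [AddCommGroup X] [AddCommGroup A]
  (ω : G →* (X ≃ₗ[ℤ] X)) (ρ : Representation ℤ G A)

/-- cocycles -/
def Coc (ξ : G → X →+ A) : Prop := ∀ σ τ x, ξ (σ * τ) x = ξ σ x + ρ σ (ξ τ (ω σ⁻¹ x))

/-- `χ` splits `ξ` on `Y` -/
structure Sp (ξ : G → X →+ A) (Y : Submodule ℤ X) (χ : X → A) : Prop where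
  add : ∀ x ∈ Y, ∀ y ∈ Y, χ (x + y) = χ x + χ y
  eq : ∀ σ, ∀ x ∈ Y, ρ σ (χ (ω σ⁻¹ x)) = ξ σ x + χ x

/-- Hilbert 90 -/
def H1 : Prop := ∀ c : G → A, (∀ σ τ, c (σ * τ) = c σ + ρ σ (c τ)) → ∃ u, ∀ σ, ρ σ u = c σ + u

/-- the norm is onto -/
def H0 [Fintype G] : Prop := ∀ t, (∀ σ, ρ σ t = t) → ∃ w, ∑ τ, ρ τ w = t

variable {ω ρ} {ξ : G → X →+ A} {Y : Submodule ℤ X} {χ : X → A}

theorem Sp.smul (h : Sp ω ρ ξ Y χ) (n : ℤ) {x : X} (hx : x ∈ Y) : χ (n • x) = n • χ x :=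
  map_zsmul (AddMonoidHom.mk' (fun x : Y => χ x) fun x y => h.add _ x.2 _ y.2) n ⟨x, hx⟩

theorem ω_mul (σ τ : G) (x : X) : ω (σ * τ) x = ω σ (ω τ x) := by rw [map_mul]; rfl

theorem ρ_mul (σ τ : G) (a : A) : ρ (σ * τ) a = ρ σ (ρ τ a) := by rw [map_mul]; rfl

/-- Extension of a splitting to a sublattice in which the given one has prime index. -/
theorem step [Fintype G] (h1 : H1 ρ) (h0 : H0 ρ) (hξ : Coc ω ρ ξ) (h : Sp ω ρ ξ Y χ)
    (hY : ∀ σ, ∀ x ∈ Y, ω σ x ∈ Y) {l : ℤ} (l0 : l ≠ 0) {z : X} (hl : l • z ∈ Y)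
    (hz : ∀ σ, ω σ z - z ∈ Y) (f : X →ₗ[ℤ] ℤ) (f0 : ∀ x ∈ Y, l ∣ f x) (f1 : l ∣ 1 - f z) :
    ∃ χ', Sp ω ρ ξ (Y ⊔ Submodule.span ℤ {z}) χ' := by
  obtain ⟨u, hu⟩ := h1 (fun σ => ξ σ z - ρ σ (χ (ω σ⁻¹ z - z))) fun σ τ => by
    have e : ω (σ * τ)⁻¹ z - z = ω τ⁻¹ (ω σ⁻¹ z - z) + (ω τ⁻¹ z - z) := by
      rw [mul_inv_rev, ω_mul, map_sub]; abel
    rw [e, h.add _ (hY _ _ (hz _)) _ (hz _), hξ, ρ_mul, map_add, h.eq _ _ (hz _)]
    simp only [map_add, map_sub]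
    abel
  let Ψ : X → ℤ → A := fun x n => χ (x - n • z) + n • u
  have ad : ∀ σ x (n : ℤ), ω σ x - n • z = ω σ (x - n • z) + n • (ω σ z - z) := fun σ x n => by
    rw [map_sub, map_smul, smul_sub]; abel
  have eΨ : ∀ σ x (n : ℤ), x - n • z ∈ Y → ρ σ (Ψ (ω σ⁻¹ x) n) = ξ σ x + Ψ x n := fun σ x n m => by
    simp only [Ψ]
    rw [ad, h.add _ (hY _ _ m) _ (Y.smul_mem _ (hz _)), h.smul _ (hz _), map_add, map_add,
      h.eq _ _ m, map_smul, map_smul, hu, map_sub, map_zsmul, smul_add, smul_sub]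
    abel
  have m0 : ∀ j : ℤ, 0 - (l * j) • z ∈ Y := fun j => by
    rw [zero_sub, mul_comm, mul_smul]; exact Y.neg_mem (Y.smul_mem _ hl)
  obtain ⟨w, hw⟩ := h0 (Ψ 0 (l * 1)) fun σ => by
    have := eΨ σ 0 _ (m0 1)
    rwa [map_zero, map_zero, zero_add] at this
  let Θ : X → ℤ → A := fun x n => Ψ x n - ∑ τ, ((n - f (ω τ⁻¹ x)) / l) • ρ τ w
  have st : ∀ σ x (n : ℤ), x - n • z ∈ Y → ω σ x - n • z ∈ Y := fun σ x n m =>
    ad σ x n ▸ Y.add_mem (hY _ _ m) (Y.smul_mem _ (hz _))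
  have dv : ∀ x (n : ℤ), x - n • z ∈ Y → l ∣ n - f x := fun x n m => by
    have e : n - f x = n * (1 - f z) - f (x - n • z) := by rw [map_sub, map_smul, smul_eq_mul]; ring
    exact e ▸ dvd_sub (f1.mul_left n) (f0 _ m)
  have aΘ : ∀ x y (n m : ℤ), x - n • z ∈ Y → y - m • z ∈ Y →
      Θ (x + y) (n + m) = Θ x n + Θ y m := fun x y n m a b => by
    have e : x + y - (n + m) • z = x - n • z + (y - m • z) := by rw [add_smul]; abel
    have e' : ∀ τ, (n + m - f (ω τ⁻¹ (x + y))) / l =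
        (n - f (ω τ⁻¹ x)) / l + (m - f (ω τ⁻¹ y)) / l := fun τ => by
      rw [← Int.add_ediv_of_dvd_left (dv _ _ (st _ _ _ a)), map_add, map_add]; congr 1; ring
    simp only [Θ, Ψ, e, e', h.add _ a _ b]
    simp only [add_smul, Finset.sum_add_distrib]
    abel
  have zΘ : ∀ j : ℤ, Θ 0 (l * j) = 0 := fun j => by
    have e : 0 - (l * j) • z = j • (0 - (l * 1) • z) := by module
    simp only [Θ, map_zero, sub_zero, Int.mul_ediv_cancel_left _ l0]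
    rw [← Finset.smul_sum, hw]
    simp only [Ψ]
    rw [e, h.smul _ (m0 1)]
    module
  have iΘ : ∀ x (n : ℤ), x - n • z ∈ Y → x - f x • z ∈ Y ∧ Θ x (f x) = Θ x n := fun x n m => by
    obtain ⟨j, hj⟩ := dv x n m
    have e : f x = n + l * -j := by rw [mul_neg, ← hj]; ring
    have := aΘ x 0 n _ m (m0 (-j))
    rw [add_zero, zΘ, add_zero, ← e] at this
    refine ⟨?_, this⟩
    have e' : x - (n + l * -j) • z = x - n • z + (0 - (l * -j) • z) := by module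
    rw [e, e']
    exact Y.add_mem m (m0 _)
  have mm : ∀ x ∈ Y ⊔ Submodule.span ℤ {z}, x - f x • z ∈ Y := fun x m => by
    obtain ⟨y, hy, _, hv, rfl⟩ := Submodule.mem_sup.1 m
    obtain ⟨n, rfl⟩ := Submodule.mem_span_singleton.1 hv
    exact (iΘ _ n (by rwa [add_sub_cancel_right])).1
  refine ⟨fun x => Θ x (f x), fun x a y b => ?_, fun σ x a => ?_⟩
  · rw [map_add, aΘ _ _ _ _ (mm x a) (mm y b)]
  rw [(iΘ _ _ (st σ⁻¹ _ _ (mm x a))).2]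
  simp only [Θ]
  rw [map_sub, eΨ _ _ _ (mm x a), map_sum, add_sub_assoc,
    ← Equiv.sum_comp (Equiv.mulLeft σ) (fun τ => ((f x - f (ω τ⁻¹ x)) / l) • ρ τ w)]
  simp only [map_smul, Equiv.coe_mulLeft, mul_inv_rev, ω_mul, ρ_mul]

/-- a fixed vector in the quotient -/
theorem exists_fix [Module.Finite ℤ X] {l : ℕ} [Fact l.Prime] (hG : IsPGroup l G)
    (hY : ∀ σ, ∀ x ∈ Y, ω σ x ∈ Y) (hl : ∀ x, (l : ℤ) • x ∈ Y) (ne : Y ≠ ⊤) :
    ∃ z ∉ Y, ∀ σ, ω σ z - z ∈ Y := by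
  have tor : ∀ v : X ⧸ Y, l • v = 0 := fun v => by
    obtain ⟨x, rfl⟩ := Y.mkQ_surjective v
    rw [← map_nsmul, ← natCast_zsmul]
    exact (Submodule.Quotient.mk_eq_zero Y).2 (hl x)
  have : Finite (X ⧸ Y) := Module.finite_of_fg_torsion _ fun v =>
    ⟨⟨l, mem_nonZeroDivisors_of_ne_zero (Int.natCast_ne_zero.2 (Fact.out : l.Prime).ne_zero)⟩,
      (natCast_zsmul v l).trans (tor v)⟩
  let _ : MulAction G (X ⧸ Y) :=
    { smul := fun σ => Y.mapQ Y (ω σ).toLinearMap (hY σ)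
      one_smul := fun v => by
        obtain ⟨x, rfl⟩ := Y.mkQ_surjective v
        show Y.mkQ (ω 1 x) = _
        rw [map_one]; rfl
      mul_smul := fun σ τ v => by
        obtain ⟨x, rfl⟩ := Y.mkQ_surjective v
        exact congrArg Y.mkQ (ω_mul σ τ x) }
  have := Submodule.Quotient.nontrivial_iff.2 ne
  obtain ⟨v, hv⟩ := exists_ne (0 : X ⧸ Y)
  obtain ⟨b, h1, h2⟩ := hG.exists_fixed_point_of_prime_dvd_card_of_fixed_point (X ⧸ Y)
    (addOrderOf_eq_prime (tor v) hv ▸ addOrderOf_dvd_natCard v) (a := 0)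
    fun σ => map_zero (Y.mapQ Y (ω σ).toLinearMap (hY σ))
  obtain ⟨z, rfl⟩ := Y.mkQ_surjective b
  exact ⟨z, fun m => h2 ((Submodule.Quotient.mk_eq_zero Y).2 m).symm,
    fun σ => (Submodule.Quotient.eq Y).1 (h1 σ)⟩

theorem exists_add {V : Type} [AddCommGroup V] {l : ℕ} [Fact l.Prime] (h : ∀ v : V, l • v = 0)
    {v : V} (hv : v ≠ 0) : ∃ g : V →+ ZMod l, g v = 1 := by
  have key : ∀ (F : Type) [Field F] [Module F V], ∃ g : V →+ F, g v = 1 := fun F _ _ =>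
    (Module.Projective.exists_dual_eq_one F hv).elim fun g hg => ⟨g.toAddMonoidHom, hg⟩
  exact @key (ZMod l) _ (AddCommGroup.zmodModule h)

/-- a linear form which detects the vector -/
theorem exists_form [Module.Free ℤ X] {l : ℕ} [Fact l.Prime] (hl : ∀ x, (l : ℤ) • x ∈ Y) {z : X}
    (hz : z ∉ Y) : ∃ f : X →ₗ[ℤ] ℤ, (∀ x ∈ Y, (l : ℤ) ∣ f x) ∧ (l : ℤ) ∣ 1 - f z := by
  obtain ⟨g, hg⟩ := exists_add (l := l) (v := Y.mkQ z) (fun v => by
    obtain ⟨x, rfl⟩ := Y.mkQ_surjective v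
    rw [← map_nsmul, ← natCast_zsmul]
    exact (Submodule.Quotient.mk_eq_zero Y).2 (hl x))
    fun e => hz ((Submodule.Quotient.mk_eq_zero Y).1 e)
  obtain ⟨f, hf⟩ := Module.projective_lifting_property (Int.castAddHom (ZMod l)).toIntLinearMap
    (g.toIntLinearMap ∘ₗ Y.mkQ) (ZMod.intCast_surjective)
  have e : ∀ x, (f x : ZMod l) = g (Y.mkQ x) := fun x => LinearMap.congr_fun hf x
  refine ⟨f, fun x m => (ZMod.intCast_zmod_eq_zero_iff_dvd _ _).1 ?_,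
    (ZMod.intCast_zmod_eq_zero_iff_dvd _ _).1 ?_⟩
  · rw [e, show Y.mkQ x = 0 from (Submodule.Quotient.mk_eq_zero Y).2 m, map_zero]
  · rw [Int.cast_sub, e, hg, Int.cast_one, sub_self]

variable (ω ρ) in
/-- a multiple of `ξ` is a coboundary -/
def Cob (ξ : G → X →+ A) (n : ℤ) : Prop :=
  ∃ χ : X →+ A, ∀ σ x, ρ σ (χ (ω σ⁻¹ x)) = n • ξ σ x + χ x

/-- division by `l` for groups of order a power of `l` -/
theorem cob_div [Fintype G] [Module.Finite ℤ X] [Module.Free ℤ X] {l : ℕ} [Fact l.Prime]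
    (hG : IsPGroup l G) (h1 : H1 ρ) (h0 : H0 ρ) (hξ : Coc ω ρ ξ) (h : Cob ω ρ ξ l) :
    Cob ω ρ ξ 1 := by
  have l0 : (l : ℤ) ≠ 0 := Int.natCast_ne_zero.2 (Fact.out : l.Prime).ne_zero
  obtain ⟨χ, hχ⟩ := h
  have li := Function.leftInverse_invFun (smul_right_injective X l0)
  obtain ⟨Y, ⟨hY, hl, χ, hχ⟩, mx⟩ := set_has_maximal_iff_noetherian.2 inferInstance
    {Y : Submodule ℤ X | (∀ σ, ∀ x ∈ Y, ω σ x ∈ Y) ∧ (∀ x, (l : ℤ) • x ∈ Y) ∧ ∃ χ, Sp ω ρ ξ Y χ}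
    ⟨LinearMap.range ((l : ℤ) • LinearMap.id), by
      rintro σ _ ⟨x, rfl⟩; exact ⟨ω σ x, (map_smul (ω σ) _ x).symm⟩, fun x => ⟨x, rfl⟩,
      fun y => χ (Function.invFun ((l : ℤ) • ·) y), by
        rintro _ ⟨x, rfl⟩ _ ⟨y, rfl⟩
        simp only [LinearMap.smul_apply, LinearMap.id_apply, ← smul_add]
        rw [li x, li y, li (x + y), map_add], by
        rintro σ _ ⟨x, rfl⟩
        simp only [LinearMap.smul_apply, LinearMap.id_apply, map_smul, map_zsmul]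
        rw [li x, li (ω σ⁻¹ x), hχ]⟩
  obtain rfl : Y = ⊤ := by
    by_contra ne
    obtain ⟨z, z0, hz⟩ := exists_fix hG hY hl ne
    obtain ⟨f, f0, f1⟩ := exists_form hl z0
    refine mx _ ⟨fun σ x m => ?_, fun x => Submodule.mem_sup_left (hl x),
      step h1 h0 hξ hχ hY l0 (hl z) hz f f0 f1⟩ (left_lt_sup.2 fun e =>
        z0 (e (Submodule.mem_span_singleton_self z)))
    obtain ⟨y, hy, _, hv, rfl⟩ := Submodule.mem_sup.1 m
    obtain ⟨n, rfl⟩ := Submodule.mem_span_singleton.1 hv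
    have e : ω σ (y + n • z) = ω σ y + n • (ω σ z - z) + n • z := by rw [map_add, map_smul]; module
    exact e ▸ Submodule.add_mem_sup (Y.add_mem (hY _ _ hy) (Y.smul_mem _ (hz σ))) hv
  exact ⟨AddMonoidHom.mk' χ fun x y => hχ.add x trivial y trivial, fun σ x => by
    rw [one_smul]; exact hχ.eq σ x trivial⟩

theorem cob_pow [Fintype G] [Module.Finite ℤ X] [Module.Free ℤ X] {l : ℕ} [Fact l.Prime]
    (hG : IsPGroup l G) (h1 : H1 ρ) (h0 : H0 ρ) (hξ : Coc ω ρ ξ) (a : ℕ)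
    (h : Cob ω ρ ξ (l ^ a)) : Cob ω ρ ξ 1 := by
  induction a with
  | zero => exact h
  | succ a ih =>
    obtain ⟨χ, hχ⟩ := h
    obtain ⟨χ, hχ⟩ := cob_div (ω := ω) (ξ := fun σ => (l : ℤ) ^ a • ξ σ) hG h1 h0
      (fun σ τ x => by simp only [AddMonoidHom.smul_apply, hξ σ τ, smul_add, map_smul])
      ⟨χ, fun σ x => by rw [hχ, AddMonoidHom.smul_apply, smul_smul, pow_succ']⟩
    exact ih ⟨χ, fun σ x => by rw [hχ, one_smul, AddMonoidHom.smul_apply]⟩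

/-- transfer -/
theorem cob_tr [Finite G] (P : Subgroup G) (hξ : Coc ω ρ ξ)
    (h : Cob (ω.comp P.subtype) (ρ.comp P.subtype) (fun σ => ξ σ) 1) : Cob ω ρ ξ P.index := by
  obtain ⟨χ, hχ⟩ := h
  have := Fintype.ofFinite (G ⧸ P)
  let f : G → X →+ A := fun τ =>
    (ρ τ).toAddMonoidHom.comp (χ.comp (ω τ⁻¹).toLinearMap.toAddMonoidHom) - ξ τ
  have ef : ∀ τ x, f τ x = ρ τ (χ (ω τ⁻¹ x)) - ξ τ x := fun _ _ => rfl
  have f1 : ∀ τ (p : P) x, f (τ * p) x = f τ x := fun τ p x => by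
    have := hχ p (ω τ⁻¹ x)
    rw [one_smul] at this
    rw [ef, ef, mul_inv_rev, ω_mul, ρ_mul, hξ]
    erw [this]
    rw [map_add]
    abel
  refine ⟨∑ q : G ⧸ P, f q.out, fun σ x => ?_⟩
  rw [AddMonoidHom.finsetSum_apply, AddMonoidHom.finsetSum_apply, map_sum,
    ← Equiv.sum_comp (MulAction.toPerm σ) (fun q : G ⧸ P => f q.out x), natCast_zsmul,
    Subgroup.index, Nat.card_eq_fintype_card, ← Finset.card_univ, ← Finset.sum_const,
    ← Finset.sum_add_distrib]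
  refine Finset.sum_congr rfl fun q _ => ?_
  obtain ⟨p, hp⟩ := QuotientGroup.mk_out_eq_mul P (σ * q.out)
  have e : MulAction.toPerm σ q = QuotientGroup.mk (σ * q.out) :=
    (MulAction.Quotient.mk_smul_out P σ q).symm
  rw [e, hp, f1, ef, ef, mul_inv_rev, ω_mul, ρ_mul, hξ, map_sub]
  abel

/-- **The vanishing theorem.** -/
theorem cob_main [Finite G] [Module.Finite ℤ X] [Module.Free ℤ X] {l : ℕ} [Fact l.Prime]
    (P : Sylow l G) [Fintype P] (h1 : H1 (ρ.comp P.1.subtype)) (h0 : H0 (ρ.comp P.1.subtype))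
    (hξ : Coc ω ρ ξ) (a : ℕ) (h : Cob ω ρ ξ (l ^ a)) : Cob ω ρ ξ 1 := by
  obtain ⟨χ, hχ⟩ := h
  obtain ⟨χ', hχ'⟩ := cob_tr P.1 hξ (cob_pow (G := P.1) P.2 h1 h0 (fun σ τ => hξ σ τ) a
    ⟨χ, fun σ => hχ σ⟩)
  obtain ⟨u, v, e⟩ : IsCoprime ((l : ℤ) ^ a) P.1.index := (Nat.isCoprime_iff_coprime.2
    ((Fact.out : l.Prime).coprime_iff_not_dvd.2 P.not_dvd_index)).pow_left
  refine ⟨u • χ + v • χ', fun σ x => ?_⟩
  simp only [AddMonoidHom.add_apply, AddMonoidHom.smul_apply, map_add, map_smul, hχ, hχ', ← e]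
  module

end Vale.Agent.P011UHC
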