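import Vale.Agent.P011UHC.Abs
import Vale.Agent.P011UHC.Prm

/-!
Norms in Galois extensions of prime power degree over fields of dimension one.
-/

set_option autoImplicit false
set_option linter.all false

namespace Vale.Agent.P011UHC

open Vale.Agent.P011LD Vale.Agent.P011UHB Vale.Agent.P011U Module IntermediateField

/-- `Dim1` for abstract fields -/
def D1 (l : ℕ) (F K : Type) [Field F] [Field K] [Algebra F K] : Prop :=
  ∀ (M N : Type) [Field M] [Field N] [Algebra F M] [Algebra M N] [Algebra F N]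
    [IsScalarTower F M N] [FiniteDimensional F M], (N →ₐ[F] K) → finrank M N = l → IsGalois M N →
      Function.Surjective (Algebra.norm M : N → M)

theorem d1_of {k K : Type} [Field k] [Field K] [Algebra k K] {l : ℕ} {F : IntermediateField k K}
    (h : Dim1 l F) : D1 l F K := by
  intro M N _ _ _ _ _ _ _ φ hl g x
  let ψ := φ.comp (IsScalarTower.toAlgHom F M N)
  have le : ψ.fieldRange ≤ φ.fieldRange := by rintro _ ⟨y, rfl⟩; exact ⟨_, rfl⟩
  let e₁ : M ≃ₐ[F] ψ.fieldRange := AlgEquiv.ofInjectiveField ψ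
  let e₂ : N ≃+* extendScalars le := (AlgEquiv.ofInjectiveField φ).toRingEquiv
  have c : (algebraMap ψ.fieldRange (extendScalars le)).comp (e₁.toRingEquiv : M →+* _) =
      (e₂ : N →+* _).comp (algebraMap M N) := RingHom.ext fun _ => rfl
  obtain ⟨y, hy⟩ := h ψ.fieldRange e₁.toLinearEquiv.finiteDimensional (extendScalars le)
    ((Algebra.finrank_eq_of_equiv_equiv e₁.toRingEquiv e₂ c).symm.trans hl) (IsGalois.of_equiv_equiv c) (e₁ x)
  refine ⟨e₂.symm y, ?_⟩
  rw [Algebra.norm_eq_of_equiv_equiv _ _ c, e₂.apply_symm_apply, hy]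
  exact e₁.symm_apply_apply x

variable {F K E : Type} [Field F] [Field K] [Algebra F K] [Field E] [Algebra F E]
  [FiniteDimensional F E]

theorem norm_surj {l : ℕ} [Fact l.Prime] (h : D1 l F K) (φ : E →ₐ[F] K) (n : ℕ) :
    ∀ (M : Type) [Field M] [Algebra F M] [Algebra M E] [IsScalarTower F M E], IsGalois M E →
      finrank M E = l ^ n → Function.Surjective (Algebra.norm M : E → M) := by
  induction n with
  | zero =>
    intro M _ _ _ _ g e x
    have := Module.Finite.of_restrictScalars_finite F M E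
    exact ⟨algebraMap M E x, by rw [Algebra.norm_algebraMap, e, pow_zero, pow_one]⟩
  | succ n ih =>
    intro M _ _ _ _ g e x
    have := Module.Finite.of_restrictScalars_finite F M E
    have := FiniteDimensional.left F M E
    have p : l.Prime := Fact.out
    have c := (IsGalois.card_aut_eq_finrank M E).trans e
    obtain ⟨H, hH⟩ := Sylow.exists_subgroup_card_pow_prime (G := E ≃ₐ[M] E) l (n := n)
      (c ▸ pow_dvd_pow l n.le_succ)
    have i : H.index = l := Nat.eq_of_mul_eq_mul_left (pow_pos p.pos n)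
      (by rw [← pow_succ, ← c, ← hH, H.card_mul_index])
    have : H.Normal := Subgroup.normal_of_index_eq_minFac_card
      (by rw [i, c, Nat.pow_minFac n.succ_ne_zero, p.minFac_eq])
    have : IsScalarTower F (fixedField H) E := IsScalarTower.of_algebraMap_eq fun x => rfl
    have r : finrank (fixedField H) E = l ^ n := (finrank_fixedField_eq_card H).trans hH
    obtain ⟨y, rfl⟩ := h M (fixedField H) (φ.comp (IsScalarTower.toAlgHom F _ E))
      (Nat.eq_of_mul_eq_mul_right (pow_pos p.pos n)
        (by rw [← pow_succ', ← e, ← r, finrank_mul_finrank])) inferInstance x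
    obtain ⟨z, rfl⟩ := ih (fixedField H) inferInstance r y
    exact ⟨z, Algebra.norm_norm.symm⟩

variable (F E) in
/-- the multiplicative group as a Galois module -/
noncomputable abbrev rep : Representation ℤ (E ≃ₐ[F] E) (Additive Eˣ) :=
  Representation.ofMulDistribMulAction _ _

theorem rep_val (σ : E ≃ₐ[F] E) (a : Additive Eˣ) :
    ((rep F E σ a).toMul : E) = σ (a.toMul : E) := rfl

theorem h1_rep (P : Subgroup (E ≃ₐ[F] E)) : H1 ((rep F E).comp P.subtype) := by
  classical
  intro c hc
  let d : (E ≃ₐ[F] E) → E := fun σ => if h : σ ∈ P then ((c ⟨σ, h⟩).toMul : E) else 1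
  have ed : ∀ σ : P, d σ = (c σ).toMul := fun σ => dif_pos σ.2
  obtain ⟨b, b0, hb⟩ := h90_one (Γ := P) d (fun σ s τ t => by
      rw [ed ⟨σ, s⟩, ed ⟨τ, t⟩]
      exact (ed (⟨σ, s⟩ * ⟨τ, t⟩)).trans (congrArg (fun a : Additive Eˣ => (a.toMul : E)) (hc _ _)))
    (Op.of_field ⊤ fun σ s e => by
      obtain rfl : σ = 1 := AlgEquiv.ext fun x => e x trivial
      have := hc 1 1
      rw [mul_one, map_one, Module.End.one_apply, left_eq_add] at this
      exact (ed 1).trans (by rw [this]; rfl))
  refine ⟨-Additive.ofMul (Units.mk0 b b0), fun σ => ?_⟩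
  rw [map_neg, neg_eq_iff_eq_neg, neg_add, neg_neg, eq_neg_add_iff_add_eq]
  exact Additive.toMul.injective (Units.ext ((congrArg (· * σ.1 b) (ed σ).symm).trans (hb σ σ.2)))

theorem h0_rep [IsGalois F E] {l : ℕ} [Fact l.Prime] (h : D1 l F K) (φ : E →ₐ[F] K)
    (P : Subgroup (E ≃ₐ[F] E)) [Fintype P] (hP : IsPGroup l P) :
    H0 ((rep F E).comp P.subtype) := by
  intro t ht
  obtain ⟨n, hn⟩ := IsPGroup.iff_card.1 hP
  obtain ⟨w, hw⟩ := norm_surj h φ n (fixedField P) inferInstance
    ((finrank_fixedField_eq_card P).trans hn)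
    ⟨(t.toMul : E), fun σ => congrArg (fun a : Additive Eˣ => (a.toMul : E)) (ht σ)⟩
  have e := Algebra.norm_eq_prod_automorphisms (fixedField P) w
  rw [hw, ← Equiv.prod_comp (subgroupEquivAlgEquiv P).toEquiv] at e
  have w0 : w ≠ 0 := fun z => t.toMul.ne_zero (e.trans (Finset.prod_eq_zero (Finset.mem_univ 1)
    (by rw [z, map_zero])))
  refine ⟨Additive.ofMul (Units.mk0 w w0), Additive.toMul.injective (Units.ext ?_)⟩
  rw [toMul_sum, Units.coe_prod]
  exact e.symm

end Vale.Agent.P011UHC
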